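import Mathlib
import Vale.Agent.Lib.P110.Littlewood

namespace Vale.Agent.Results.P110.FlatnessRate

/-- A quantitative limit to the flatness of real Littlewood polynomials.
Let `P(z) = ∑_{k<N} ε_k z^k` with all `ε_k ∈ {-1, 1}` and `N ≥ 1`.
* There is a point `z` of the unit circle with `| |P(z)|² - N | ≥ √(N - 1)`.
* Hence, if `(1 - c) √N ≤ |P(z)| ≤ (1 + c) √N` for all `|z| = 1` (with `c ≥ 0`), then
  `c (2 + c) N ≥ √(N - 1)`: the flatness error `c` of a Littlewood polynomial of length `N`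
  is at least of order `N^(-1/2)`. -/
theorem result (N : ℕ) (hN : 1 ≤ N) (ε : Fin N → ℤ) (hε : ∀ k, ε k = 1 ∨ ε k = -1) :
    (∃ z : ℂ, ‖z‖ = 1 ∧
      Real.sqrt ((N : ℝ) - 1) ≤ |‖∑ k : Fin N, (ε k : ℂ) * z ^ (k : ℕ)‖ ^ 2 - N|) ∧
    (∀ c : ℝ, 0 ≤ c →
      (∀ z : ℂ, ‖z‖ = 1 →
        (1 - c) * Real.sqrt N ≤ ‖∑ k : Fin N, (ε k : ℂ) * z ^ (k : ℕ)‖ ∧
        ‖∑ k : Fin N, (ε k : ℂ) * z ^ (k : ℕ)‖ ≤ (1 + c) * Real.sqrt N) →
      Real.sqrt ((N : ℝ) - 1) ≤ c * (2 + c) * N) :=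
  Vale.Agent.Lib.P110.main N hN ε hε

end Vale.Agent.Results.P110.FlatnessRate
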